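import Vale.Agent.P346.Params
import Vale.Agent.P346.Constr

namespace Vale.Agent.Results.P346.Main

open Vale.Agent.P346

theorem result : ∃ c C : ℝ, 0 < c ∧ 0 < C ∧ ∃ n₀ : ℕ, ∀ n : ℕ, n₀ ≤ n →
    ∀ (K : Type*) [Field K] [CharZero K],
      (n : ℝ) ^ (c * Real.sqrt n) ≤ (sK K n : ℝ) ∧ (sK K n : ℝ) ≤ (n : ℝ) ^ (C * Real.sqrt n) := by
  have h1 : ∀ᶠ n : ℕ in Filter.atTop, 43008 ≤ Real.log n :=
    (Real.tendsto_log_atTop.comp tendsto_natCast_atTop_atTop).eventually_ge_atTop _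
  obtain ⟨n₁, hn₁⟩ := Filter.eventually_atTop.mp h1
  refine ⟨1 / 2048, 2, by norm_num, by norm_num, max n₁ (16384 ^ 2), fun n hn K _ _ => ?_⟩
  have ha : n₁ ≤ n := le_trans (le_max_left _ _) hn
  have hb : 16384 ^ 2 ≤ n := le_trans (le_max_right _ _) hn
  refine ⟨?_, sK_upper K n (by omega)⟩
  obtain ⟨G0, g1, g2, -⟩ := exists_small K n n (by omega) (Nat.le_mul_self n)
  have hne : {s | ∃ G : Circuit (Fin n × Fin n × Fin n) K,
      G.SynHom ∧ G.value = IMM K n n ∧ G.size = s}.Nonempty := ⟨_, G0, g1, g2, rfl⟩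
  obtain ⟨G, h2, h3, h4⟩ := Nat.sInf_mem hne
  have := size_lower n hb (hn₁ n ha) K G h2 h3
  rw [h4] at this
  exact this

end Vale.Agent.Results.P346.Main
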